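import Vale.Agent.P216.H126B.Homot
import Vale.Agent.P216.H250.PathFun
import Vale.Agent.P216.LS.Desc
import Mathlib.Analysis.Convex.Contractible

/-!
# P216-B, R1: based conjugation
-/

set_option linter.all false

open Set Filter Topology unitInterval Vale.Agent.P216.L250

namespace Vale.Agent.P216.H126B

variable {M : Type} [MetricSpace M] {ρ : ℝ}

open Path.Homotopic.Quotient (mk)

theorem sc_sq : SimplyConnectedSpace (I × I) := by
  have h1 : ContractibleSpace I := (convex_Icc (0 : ℝ) 1).contractibleSpace ⟨0, by simp⟩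
  infer_instance

/-- The two ways around a square. -/
theorem sq_homotopic (F : C(I × I, M)) {a b c d : M} (p : Path a b) (q : Path c d) (u : Path a c)
    (v : Path b d) (hp : ∀ t, p t = F (0, t)) (hq : ∀ t, q t = F (1, t)) (hu : ∀ s, u s = F (s, 0))
    (hv : ∀ s, v s = F (s, 1)) : (p.trans v).Homotopic (u.trans q) := by
  obtain rfl : F (0, 0) = a := by rw [← hp, p.source]
  obtain rfl : F (0, 1) = b := by rw [← hp, p.target]
  obtain rfl : F (1, 0) = c := by rw [← hq, q.source]
  obtain rfl : F (1, 1) = d := by rw [← hq, q.target]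
  have := sc_sq
  let P : Path ((0, 0) : I × I) (0, 1) := ⟨⟨fun t => (0, t), by fun_prop⟩, rfl, rfl⟩
  let V : Path ((0, 1) : I × I) (1, 1) := ⟨⟨fun t => (t, 1), by fun_prop⟩, rfl, rfl⟩
  let U : Path ((0, 0) : I × I) (1, 0) := ⟨⟨fun t => (t, 0), by fun_prop⟩, rfl, rfl⟩
  let W : Path ((1, 0) : I × I) (1, 1) := ⟨⟨fun t => (1, t), by fun_prop⟩, rfl, rfl⟩
  have h := (SimplyConnectedSpace.paths_homotopic (P.trans V) (U.trans W)).map F
  rw [Path.map_trans, Path.map_trans] at h
  have e1 : P.map F.continuous = p := by ext t; exact (hp t).symm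
  have e2 : V.map F.continuous = v := by ext t; exact (hv t).symm
  have e3 : U.map F.continuous = u := by ext t; exact (hu t).symm
  have e4 : W.map F.continuous = q := by ext t; exact (hq t).symm
  rwa [e1, e2, e3, e4] at h

/-- Paths which factor through two paths of the line with the same end points. -/
theorem line_homotopic (f : C(ℝ, M)) {a b : M} {u v : ℝ} (p q : Path a b) (φ ψ : Path u v)
    (hp : ∀ t, p t = f (φ t)) (hq : ∀ t, q t = f (ψ t)) : p.Homotopic q := by
  obtain rfl : f u = a := by rw [← p.source, hp, φ.source]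
  obtain rfl : f v = b := by rw [← p.target, hp, φ.target]
  have h := (SimplyConnectedSpace.paths_homotopic φ ψ).map f
  have e1 : φ.map f.continuous = p := by ext t; exact (hp t).symm
  have e2 : ψ.map f.continuous = q := by ext t; exact (hq t).symm
  rwa [e1, e2] at h

/-- Free homotopies are conjugations. -/
theorem conj_of_joined {x y : LM M} (h : Joined x y) {a b : M} (p : Path a a) (q : Path b b)
    (hp : ∀ t : I, p t = fn x t) (hq : ∀ t : I, q t = fn y t) :
    ∃ ω : Q a b, mk p = ω.trans ((mk q).trans ω.symm) := by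
  obtain ⟨γ⟩ := h
  let F : C(I × I, M) := ⟨fun z => (γ z.1) ((z.2 : ℝ) : AddCircle (1 : ℝ)), by
    have h1 : Continuous fun z : I × I => γ z.1 := by fun_prop
    have h2 : Continuous fun z : I × I => (((z.2 : ℝ)) : AddCircle (1 : ℝ)) :=
      (AddCircle.continuous_mk' 1).comp (by fun_prop)
    exact h1.eval h2⟩
  have hF : ∀ s t : I, F (s, t) = fn (γ s) t := fun s t => rfl
  let w : Path a b := ⟨⟨fun s => F (s, 0), by fun_prop⟩, by
      show F (0, 0) = a
      rw [hF, γ.source, ← hp, p.source], by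
      show F (1, 0) = b
      rw [hF, γ.target, ← hq, q.source]⟩
  have key := sq_homotopic F p q w w (fun t => by rw [hF, γ.source, hp])
    (fun t => by rw [hF, γ.target, hq]) (fun s => rfl) (fun s => by
      show F (s, 0) = F (s, 1)
      rw [hF, hF]
      show fn (γ s) 0 = fn (γ s) 1
      rw [fn_one])
  refine ⟨mk w, ?_⟩
  have h2 : (mk p).trans (mk w) = (mk w).trans (mk q) := by
    rw [← Path.Homotopic.Quotient.mk_trans, ← Path.Homotopic.Quotient.mk_trans]
    exact Path.Homotopic.Quotient.eq.2 key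
  rw [← Path.Homotopic.Quotient.trans_assoc, ← h2, Path.Homotopic.Quotient.trans_assoc,
    Path.Homotopic.Quotient.trans_symm, Path.Homotopic.Quotient.trans_refl]

/-- The closed path `t ↦ x (n t)`. -/
noncomputable def pthN (x : LM M) (n : ℕ) : Path (fn x 0) (fn x 0) where
  toFun t := fn x (n * t)
  continuous_toFun := (continuous_fn x).comp (by fun_prop)
  source' := by simp
  target' := by
    have := (fn_periodic x).nat_mul_eq n
    simpa using this

theorem pthN_apply (x : LM M) (n : ℕ) (t : I) : pthN x n t = fn x (n * t) := rfl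

theorem mk_pthN (x : LM M) (n : ℕ) : mk (pthN x n) = pw (mk (pthN x 1)) n := by
  induction n with
  | zero =>
    show Path.Homotopic.Quotient.mk (pthN x 0) = Path.Homotopic.Quotient.mk (Path.refl _)
    congr 1
    ext t
    rw [pthN_apply]
    simp
  | succ n ih =>
    show _ = (pw (mk (pthN x 1)) n).trans (mk (pthN x 1))
    rw [← ih, ← Path.Homotopic.Quotient.mk_trans, Path.Homotopic.Quotient.eq]
    let φ : Path (0 : ℝ) (n + 1) := ⟨⟨fun t : I => ((n : ℝ) + 1) * t, by fun_prop⟩, by simp, by simp⟩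
    let ψ₁ : Path (0 : ℝ) n := ⟨⟨fun t : I => (n : ℝ) * t, by fun_prop⟩, by simp, by simp⟩
    let ψ₂ : Path (n : ℝ) (n + 1) := ⟨⟨fun t : I => (n : ℝ) + t, by fun_prop⟩, by simp, by simp⟩
    refine line_homotopic ⟨fn x, continuous_fn x⟩ _ _ φ (ψ₁.trans ψ₂) (fun t => ?_) fun t => ?_
    · rw [pthN_apply]
      show _ = fn x (((n : ℝ) + 1) * t)
      push_cast
      rfl
    · rw [Path.trans_apply, Path.trans_apply]
      split_ifs with ht
      · rfl
      · rw [pthN_apply]
        show fn x ((1 : ℕ) * (2 * (t : ℝ) - 1)) = fn x ((n : ℝ) + (2 * (t : ℝ) - 1))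
        have := (fn_periodic x).nat_mul n (2 * (t : ℝ) - 1)
        rw [mul_one, add_comm] at this
        rw [this]
        simp

theorem lp_pthN (x : LM M) (n : ℕ) : lp (pthN x n) = iter n x :=
  lp_eq _ _ fun t => by rw [pthN_apply, fn_iter]

/-- A class with a Lipschitz representative contains loops of bounded energy. -/
theorem exists_mem_XE {a : M} {p : Path a a} {T : ℝ} (h : RQ (mk p) T) :
    ∃ y : LM M, Joined y (lp p) ∧ y ∈ XE M T := by
  obtain ⟨q, hq, hl⟩ := h
  refine ⟨lp q, joined_lp (Path.Homotopic.Quotient.eq.1 hq), ?_⟩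
  rw [mem_XE]
  refine hasE_of_cert (fn_periodic _) (e := fun t => T ^ 2 * t) ?_ (by ring)
  intro s t hs hst ht
  have hs' : s ∈ Icc (0 : ℝ) 1 := ⟨hs, hst.trans ht⟩
  have ht' : t ∈ Icc (0 : ℝ) 1 := ⟨hs.trans hst, ht⟩
  rw [fn_lp q hs'.1 hs'.2, fn_lp q ht'.1 ht'.2]
  have h1 := ext_lip hl hs' ht'
  have h2 := pow_le_pow_left₀ dist_nonneg h1 2
  rw [mul_pow, sq_abs] at h2
  linarith

/-- Every class has a Lipschitz representative. -/
theorem exists_RQ [CompactSpace M] (hρ : 0 < ρ) (h : LS.UniqSeg M ρ) {a b : M} (α : Q a b) :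
    ∃ T, 0 ≤ T ∧ RQ α T := by
  induction α using Path.Homotopic.Quotient.ind with
  | mk p =>
  have hu := CompactSpace.uniformContinuous_of_continuous p.continuous
  obtain ⟨δ, hδ, hd⟩ := Metric.uniformContinuous_iff.1 hu (ρ / 2) (half_pos hρ)
  obtain ⟨m, hm⟩ := exists_nat_gt (1 / δ)
  set n : ℕ := m + 1 with hn
  have hn0 : (0 : ℝ) < n := by positivity
  have hnδ : 1 / (n : ℝ) < δ := by
    rw [div_lt_iff₀ hδ] at hm
    rw [div_lt_iff₀ hn0, hn]
    push_cast
    linarith
  set r : ℝ := ρ / 2 with hr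
  have hr0 : 0 < r := half_pos hρ
  have hrρ : r < ρ := half_lt_self hρ
  let x : ℕ → M := fun i => p.extend ((i : ℝ) / n)
  have hclose : ∀ s t : ℝ, s ∈ Icc (0 : ℝ) 1 → t ∈ Icc (0 : ℝ) 1 → |s - t| < δ →
      dist (p.extend s) (p.extend t) < r := by
    intro s t hs ht hst
    rw [Path.extend_apply _ hs, Path.extend_apply _ ht]
    exact hd (by rw [Subtype.dist_eq, Real.dist_eq]; exact hst)
  have hx : ∀ i < n, dist (x i) (x (i + 1)) ≤ r := by
    intro i hi
    have h1 : (i : ℝ) + 1 ≤ n := by exact_mod_cast hi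
    refine (hclose _ _ ⟨by positivity, (div_le_one hn0).2 (by linarith)⟩
      ⟨by positivity, (div_le_one hn0).2 (by push_cast; linarith)⟩ ?_).le
    rw [← sub_div, abs_div, abs_of_pos hn0]
    push_cast
    rw [show (i : ℝ) - (i + 1) = -1 by ring, abs_neg, abs_one]
    exact hnδ
  have hpol := H250.pol_mem h hr0.le hrρ n x hx
  have hvert := H250.pol_vertex h hr0 hrρ n x hx
  have hx0 : x 0 = a := by simp [x]
  have hxn : x n = b := by
    show p.extend ((n : ℝ) / n) = b
    rw [div_self hn0.ne', Path.extend_one]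
  rw [hx0, hxn] at hpol
  let q : Path a b := ⟨⟨fun t : I => H250.pol r n x ((n * r) * t),
    (H250.PF.cont hpol).comp (by fun_prop)⟩, by
      show H250.pol r n x ((n * r) * ((0 : I) : ℝ)) = a
      rw [show ((0 : I) : ℝ) = 0 from rfl, mul_zero]
      exact H250.PF.zero hpol, by
      show H250.pol r n x ((n * r) * ((1 : I) : ℝ)) = b
      rw [show ((1 : I) : ℝ) = 1 from rfl, mul_one]
      exact H250.PF.last hpol⟩
  refine ⟨n * r, by positivity, q, ?_, fun s t => ?_⟩
  · rw [Path.Homotopic.Quotient.eq]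
    refine homotopic_of_near h fun t => ?_
    set i : ℕ := ⌊(n : ℝ) * t⌋₊ with hi
    have ht0 : (0 : ℝ) ≤ t := t.2.1
    have ht1 : (t : ℝ) ≤ 1 := t.2.2
    have e1 : (i : ℝ) ≤ n * t := Nat.floor_le (by positivity)
    have e2 : (n : ℝ) * t < i + 1 := Nat.lt_floor_add_one _
    have e3 : i ≤ n := by
      have : (i : ℝ) ≤ n := e1.trans (mul_le_of_le_one_right hn0.le ht1)
      exact_mod_cast this
    have e4 : (i : ℝ) / n ≤ t := by rw [div_le_iff₀ hn0]; linarith
    have e5 : (t : ℝ) - i / n < 1 / n := by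
      rw [sub_lt_iff_lt_add, ← add_div, lt_div_iff₀ hn0]
      linarith
    have h1 : dist (q t) (x i) ≤ r := by
      show dist (H250.pol r n x ((n * r) * t)) (x i) ≤ r
      rw [← hvert i e3]
      refine (hpol.1 _ _).trans ?_
      rw [show (n : ℝ) * r * t - i * r = (n * t - i) * r by ring, abs_mul, abs_of_pos hr0,
        abs_of_nonneg (by linarith)]
      nlinarith
    have h2 : dist (x i) (p t) < r := by
      have := hclose ((i : ℝ) / n) t ⟨by positivity, e4.trans ht1⟩ t.2 (by
        rw [abs_sub_comm, abs_of_nonneg (by linarith)]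
        linarith)
      rwa [Path.extend_apply _ t.2] at this
    have h3 := dist_triangle (q t) (x i) (p t)
    rw [hr] at h1 h2
    linarith
  · show dist (H250.pol r n x ((n * r) * s)) (H250.pol r n x ((n * r) * t)) ≤ _
    refine (hpol.1 _ _).trans (le_of_eq ?_)
    rw [← mul_sub, abs_mul, abs_of_nonneg (by positivity)]

theorem joined_iter {x y : LM M} (h : Joined x y) (p : ℕ) : Joined (iter p x) (iter p y) := by
  obtain ⟨γ⟩ := h
  exact ⟨⟨⟨fun s => iter p (γ s), ContinuousMap.continuous_precomp _ |>.comp γ.continuous⟩,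
    by simp, by simp⟩⟩

theorem joined_rev {x y : LM M} (h : Joined x y) : Joined (rev x) (rev y) := by
  obtain ⟨γ⟩ := h
  exact ⟨⟨⟨fun s => rev (γ s), ContinuousMap.continuous_precomp _ |>.comp γ.continuous⟩,
    by simp, by simp⟩⟩

theorem joined_rot (x : LM M) (r : ℝ) : Joined x (rot r x) := by
  let F : C(I × AddCircle (1 : ℝ), M) :=
    ⟨fun z => x (z.2 + (((z.1 : ℝ) * r : ℝ) : AddCircle (1 : ℝ))), by
      refine x.continuous.comp (continuous_snd.add ?_)
      exact (AddCircle.continuous_mk' 1).comp (by fun_prop)⟩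
  refine ⟨⟨F.curry, ?_, ?_⟩⟩
  · ext z
    show x (z + ((((0 : I) : ℝ) * r : ℝ) : AddCircle (1 : ℝ))) = x z
    simp
  · ext z
    show x (z + ((((1 : I) : ℝ) * r : ℝ) : AddCircle (1 : ℝ))) = rot r x z
    simp [rot]

/-- Every loop is freely homotopic to a loop of finite energy. -/
theorem exists_fin [CompactSpace M] (hρ : 0 < ρ) (h : LS.UniqSeg M ρ) (c : LM M) :
    ∃ T, 0 ≤ T ∧ ∃ x ∈ XE M T, Joined x c := by
  obtain ⟨T, hT, hR⟩ := exists_RQ hρ h (mk (pthN c 1))
  obtain ⟨y, hy, hyT⟩ := exists_mem_XE hR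
  rw [lp_pthN, iter_one] at hy
  exact ⟨T, hT, y, hyT, hy⟩

/-- **Based conjugation.** -/
theorem conj_bound [CompactSpace M] (hρ : 0 < ρ) (h : LS.UniqSeg M ρ) (x g : LM M) (m : ℕ)
    (hm : 1 ≤ m) (K Lg : ℝ) (hK : 0 ≤ K) (hx : ∀ s t, dist (fn x s) (fn x t) ≤ K * |s - t|)
    (hg : ∀ s t, dist (fn g s) (fn g t) ≤ Lg * |s - t|) (hj : Joined x (iter m g)) (r : ℕ) :
    ∃ C : ℝ, 0 ≤ C ∧ ∀ q : ℕ, ∃ y : LM M, Joined y (iter (q * m + r) g) ∧ y ∈ XE M (q * K + C) := by
  have hLg : 0 ≤ Lg := by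
    have := hg 0 1
    simp at this
    exact dist_nonneg.trans this
  obtain ⟨ω, hω⟩ := conj_of_joined hj.symm (pthN g m) (pthN x 1)
    (fun t => by rw [pthN_apply, fn_iter]) (fun t => by rw [pthN_apply]; simp)
  obtain ⟨Λ, hΛ, hR⟩ := exists_RQ hρ h ω
  have hx1 : RQ (mk (pthN x 1)) K := ⟨_, rfl, fun s t => by
    rw [pthN_apply, pthN_apply]
    simpa using hx s t⟩
  have hg1 : RQ (mk (pthN g 1)) Lg := ⟨_, rfl, fun s t => by
    rw [pthN_apply, pthN_apply]
    simpa using hg s t⟩
  refine ⟨Λ + Λ + r * Lg, by positivity, fun q => ?_⟩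
  have key : RQ (mk (pthN g (q * m + r))) (q * K + (Λ + Λ + r * Lg)) := by
    rw [mk_pthN, pw_add, mul_comm q m, pw_mul, ← mk_pthN, hω, pw_conj]
    have h1 : RQ (ω.trans ((pw (mk (pthN x 1)) q).trans ω.symm)) (Λ + (q * K + Λ)) :=
      hR.trans ((hx1.pw hK q).trans hR.symm (by positivity) hΛ) hΛ (by positivity)
    have h2 := h1.trans (hg1.pw hLg r) (by positivity) (by positivity)
    exact h2.mono (by linarith)
  obtain ⟨y, hy, hyT⟩ := exists_mem_XE key
  rw [lp_pthN] at hy
  exact ⟨y, hy, hyT⟩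

end Vale.Agent.P216.H126B
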