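import Vale.Agent.P216.H971B.Props
import Mathlib.AlgebraicTopology.FundamentalGroupoid.SimplyConnected

/-!
# P216-B, R1: homotopy classes of paths and loops, and Lipschitz representatives
-/

set_option linter.all false

open Set Filter Topology unitInterval Vale.Agent.P216.L250

namespace Vale.Agent.P216.H126B

variable {M : Type} [MetricSpace M] {ρ : ℝ}

/-- Loops at distance `< ρ` are freely homotopic. -/
theorem joined_of_near [CompactSpace M] (h : LS.UniqSeg M ρ) {g g' : LM M}
    (hd : ∀ x, dist (g x) (g' x) < ρ) : Joined g g' := by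
  have hc : Continuous (fun p : I × AddCircle (1 : ℝ) => LS.seg (g p.2) (g' p.2) (p.1 : ℝ)) :=
    (LS.continuousOn_seg h).comp_continuous
      (f := fun p : I × AddCircle (1 : ℝ) => (g p.2, g' p.2, (p.1 : ℝ))) (by fun_prop)
      fun p => ⟨hd p.2, p.1.2⟩
  let F : C(I × AddCircle (1 : ℝ), M) := ⟨_, hc⟩
  refine ⟨⟨F.curry, ?_, ?_⟩⟩
  · ext x
    show LS.seg (g x) (g' x) ((0 : I) : ℝ) = g x
    simp
  · ext x
    show LS.seg (g x) (g' x) ((1 : I) : ℝ) = g' x
    simp

/-- Paths at distance `< ρ` are homotopic. -/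
theorem homotopic_of_near [CompactSpace M] (h : LS.UniqSeg M ρ) {a b : M} {p q : Path a b}
    (hd : ∀ t, dist (p t) (q t) < ρ) : p.Homotopic q := by
  have hc : Continuous (fun z : I × I => LS.seg (p z.2) (q z.2) (z.1 : ℝ)) :=
    (LS.continuousOn_seg h).comp_continuous
      (f := fun z : I × I => (p z.2, q z.2, (z.1 : ℝ))) (by fun_prop)
      fun z => ⟨hd z.2, z.1.2⟩
  refine ⟨⟨⟨⟨_, hc⟩, fun t => by simp, fun t => by simp⟩, ?_⟩⟩
  intro s t ht
  rcases ht with rfl | rfl
  · simp
  · simp

/-- The loop of a closed path. -/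
noncomputable def lp {a : M} (p : Path a a) : LM M :=
  ⟨AddCircle.liftIco 1 0 p.extend, AddCircle.liftIco_continuous (by simp) p.continuous_extend.continuousOn⟩

theorem fn_lp {a : M} (p : Path a a) {t : ℝ} (h0 : 0 ≤ t) (h1 : t ≤ 1) : fn (lp p) t = p.extend t := by
  have key : ∀ t : ℝ, 0 ≤ t → t < 1 → fn (lp p) t = p.extend t := fun t h0 h1 =>
    AddCircle.liftIco_coe_apply (f := p.extend) (by simpa using ⟨h0, h1⟩)
  rcases h1.eq_or_lt with rfl | h1
  · rw [fn_one, key 0 le_rfl one_pos]
    simp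
  · exact key t h0 h1

theorem lp_eq {a : M} (p : Path a a) (x : LM M) (h : ∀ t : I, p t = fn x t) : lp p = x := by
  rw [← dist_le_zero]
  refine dist_le_of_Ico le_rfl fun t ht => ?_
  rw [fn_lp p ht.1 ht.2.le, Path.extend_apply _ ⟨ht.1, ht.2.le⟩, h, dist_self]

/-- Homotopic closed paths give freely homotopic loops. -/
theorem joined_lp {a : M} {p q : Path a a} (h : p.Homotopic q) : Joined (lp p) (lp q) := by
  obtain ⟨H⟩ := h
  have hc : Continuous fun s : I => lp (H.eval s) := by
    rw [continuous_iff_continuousAt]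
    intro s
    have h1 : Tendsto (fun s' => dist (H.toHomotopy.curry s') (H.toHomotopy.curry s)) (𝓝 s) (𝓝 0) := by
      have := (H.toHomotopy.toContinuousMap.curry).continuous.tendsto s
      rw [tendsto_iff_dist_tendsto_zero] at this
      exact this
    refine tendsto_iff_dist_tendsto_zero.2 (squeeze_zero (fun _ => dist_nonneg) (fun s' => ?_) h1)
    refine dist_le_of_Ico dist_nonneg fun t ht => ?_
    rw [fn_lp _ ht.1 ht.2.le, fn_lp _ ht.1 ht.2.le, Path.extend_apply _ ⟨ht.1, ht.2.le⟩,
      Path.extend_apply _ ⟨ht.1, ht.2.le⟩]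
    exact ContinuousMap.dist_apply_le_dist (f := H.toHomotopy.curry s')
      (g := H.toHomotopy.curry s) _
  refine ⟨⟨⟨fun s => lp (H.eval s), hc⟩, ?_, ?_⟩⟩
  · simp
  · simp

/-! ### Lipschitz representatives -/

/-- Homotopy classes of paths. -/
abbrev Q (a b : M) : Type := Path.Homotopic.Quotient a b

/-- The class has a representative with Lipschitz constant `T`. -/
def RQ {a b : M} (α : Q a b) (T : ℝ) : Prop :=
  ∃ p : Path a b, Path.Homotopic.Quotient.mk p = α ∧ ∀ s t : I, dist (p s) (p t) ≤ T * |(s : ℝ) - t|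

theorem RQ.mono {a b : M} {α : Q a b} {T T' : ℝ} (h : RQ α T) (hT : T ≤ T') : RQ α T' := by
  obtain ⟨p, hp, hl⟩ := h
  exact ⟨p, hp, fun s t => (hl s t).trans (mul_le_mul_of_nonneg_right hT (abs_nonneg _))⟩

theorem RQ.refl (a : M) : RQ (Path.Homotopic.Quotient.refl a) 0 :=
  ⟨Path.refl a, rfl, fun s t => by simp⟩

theorem RQ.symm {a b : M} {α : Q a b} {T : ℝ} (h : RQ α T) : RQ α.symm T := by
  obtain ⟨p, rfl, hl⟩ := h
  refine ⟨p.symm, rfl, fun s t => ?_⟩
  rw [Path.symm_apply, Path.symm_apply]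
  refine (hl _ _).trans (le_of_eq ?_)
  rw [unitInterval.coe_symm_eq, unitInterval.coe_symm_eq, abs_sub_comm]
  congr 2
  ring

/-- The map `[0, 1] → [0, 1]` sending `[0, c]` to `[0, 1/2]` and `[c, 1]` to `[1/2, 1]`. -/
noncomputable def sp (c : ℝ) (t : ℝ) : ℝ :=
  if t ≤ c then t / (2 * c) else 1 / 2 + (t - c) / (2 * (1 - c))

theorem sp_of_ge {c t : ℝ} (hc : 0 < c) (h : c ≤ t) : sp c t = 1 / 2 + (t - c) / (2 * (1 - c)) := by
  rcases h.eq_or_lt with rfl | h
  · rw [sp, if_pos le_rfl]
    field_simp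
    ring
  · rw [sp, if_neg (not_le.2 h)]

theorem continuous_sp {c : ℝ} (hc : 0 < c) : Continuous (sp c) := by
  refine Continuous.if_le (by fun_prop) (by fun_prop) continuous_id continuous_const fun t ht => ?_
  subst ht
  field_simp
  ring

theorem sp_mem {c t : ℝ} (hc : 0 < c) (hc1 : c < 1) (ht : t ∈ Icc (0 : ℝ) 1) :
    sp c t ∈ Icc (0 : ℝ) 1 := by
  have h1 : 0 < 1 - c := by linarith
  rcases le_total t c with h | h
  · rw [sp, if_pos h]
    have h2 : t / (2 * c) ≤ 1 / 2 := by
      rw [div_le_div_iff₀ (by positivity) two_pos]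
      linarith
    exact ⟨div_nonneg ht.1 (by positivity), by linarith⟩
  · rw [sp_of_ge hc h]
    have h2 : (t - c) / (2 * (1 - c)) ≤ 1 / 2 := by
      rw [div_le_div_iff₀ (by positivity) two_pos]
      linarith [ht.2]
    have h3 : 0 ≤ (t - c) / (2 * (1 - c)) := div_nonneg (by linarith) (by positivity)
    exact ⟨by linarith, by linarith⟩

theorem ext_lip {a b : M} {p : Path a b} {T : ℝ}
    (h : ∀ s t : I, dist (p s) (p t) ≤ T * |(s : ℝ) - t|) {s t : ℝ} (hs : s ∈ Icc (0 : ℝ) 1)
    (ht : t ∈ Icc (0 : ℝ) 1) : dist (p.extend s) (p.extend t) ≤ T * |s - t| := by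
  rw [Path.extend_apply _ hs, Path.extend_apply _ ht]
  exact h _ _

theorem lip_glue {F : ℝ → M} {c K : ℝ} (h1 : ∀ s t, 0 ≤ s → s ≤ t → t ≤ c →
    dist (F s) (F t) ≤ K * (t - s)) (h2 : ∀ s t, c ≤ s → s ≤ t → t ≤ 1 →
    dist (F s) (F t) ≤ K * (t - s)) (s t : ℝ) (hs : s ∈ Icc (0 : ℝ) 1) (ht : t ∈ Icc (0 : ℝ) 1) :
    dist (F s) (F t) ≤ K * |s - t| := by
  wlog hst : s ≤ t generalizing s t
  · rw [dist_comm, abs_sub_comm]
    exact this t s ht hs (le_of_not_ge hst)
  rw [abs_of_nonpos (by linarith), neg_sub]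
  rcases le_total t c with h | h
  · exact h1 s t hs.1 hst h
  · rcases le_total c s with h' | h'
    · exact h2 s t h' hst ht.2
    · have e1 := h1 s c hs.1 h' le_rfl
      have e2 := h2 c t le_rfl h ht.2
      have e3 := dist_triangle (F s) (F c) (F t)
      linarith

theorem RQ.trans {a b c : M} {α : Q a b} {β : Q b c} {T T' : ℝ} (h : RQ α T) (h' : RQ β T')
    (hT : 0 ≤ T) (hT' : 0 ≤ T') : RQ (α.trans β) (T + T') := by
  obtain ⟨p, rfl, hp⟩ := h
  obtain ⟨q, rfl, hq⟩ := h'
  rcases hT.eq_or_lt with rfl | hT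
  · have h0 : ∀ s, p s = a := fun s => by
      have := hp s 0
      rw [zero_mul, dist_le_zero, p.source] at this
      exact this
    obtain rfl : b = a := by rw [← p.target, h0]
    have e : p = Path.refl b := by ext s; rw [h0]; rfl
    subst e
    rw [zero_add, Path.Homotopic.Quotient.mk_refl, Path.Homotopic.Quotient.refl_trans]
    exact ⟨q, rfl, hq⟩
  rcases hT'.eq_or_lt with rfl | hT'
  · have h0 : ∀ s, q s = b := fun s => by
      have := hq s 0
      rw [zero_mul, dist_le_zero, q.source] at this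
      exact this
    obtain rfl : c = b := by rw [← q.target, h0]
    have e : q = Path.refl c := by ext s; rw [h0]; rfl
    subst e
    rw [add_zero, Path.Homotopic.Quotient.mk_refl, Path.Homotopic.Quotient.trans_refl]
    exact ⟨p, rfl, hp⟩
  set d := T / (T + T') with hd
  have hd0 : 0 < d := by positivity
  have hd1 : d < 1 := (div_lt_one (by positivity)).2 (by linarith)
  have hd1' : 0 < 1 - d := by linarith
  have e1 : T / d = T + T' := by rw [hd]; field_simp
  have e2 : T' / (1 - d) = T + T' := by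
    rw [hd]
    have : 1 - T / (T + T') = T' / (T + T') := by field_simp; ring
    rw [this]
    field_simp
  let f : I → I := fun t => ⟨sp d t, sp_mem hd0 hd1 t.2⟩
  have hf : Continuous f := ((continuous_sp hd0).comp continuous_subtype_val).subtype_mk _
  have hf0 : f 0 = 0 := Subtype.ext (by show sp d ((0 : I) : ℝ) = 0; simp [sp, hd0.le])
  have hf1 : f 1 = 1 := Subtype.ext (by
    show sp d ((1 : I) : ℝ) = 1
    rw [sp_of_ge hd0 (by simpa using hd1.le)]
    rw [show ((1 : I) : ℝ) = 1 from rfl]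
    field_simp
    ring)
  have key : ∀ s t : ℝ, s ∈ Icc (0 : ℝ) 1 → t ∈ Icc (0 : ℝ) 1 →
      dist ((p.trans q).extend (sp d s)) ((p.trans q).extend (sp d t)) ≤ (T + T') * |s - t| := by
    intro s t hs ht
    refine lip_glue (F := fun s => (p.trans q).extend (sp d s)) (c := d) ?_ ?_ s t hs ht
    · intro s t hs hst ht
      have g : ∀ u, 0 ≤ u → u ≤ d → (p.trans q).extend (sp d u) = p.extend (u / d) := by
        intro u hu hud
        have h3 : u / (2 * d) ≤ 1 / 2 := by
          rw [div_le_div_iff₀ (by positivity) two_pos]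
          linarith
        rw [sp, if_pos hud, Path.extend_trans_of_le_half _ _ h3]
        congr 1
        field_simp
      rw [g s hs (hst.trans ht), g t (hs.trans hst) ht]
      refine (ext_lip hp ⟨div_nonneg hs hd0.le, (div_le_one hd0).2 (hst.trans ht)⟩
        ⟨div_nonneg (hs.trans hst) hd0.le, (div_le_one hd0).2 ht⟩).trans (le_of_eq ?_)
      rw [← sub_div, abs_div, abs_of_pos hd0, abs_of_nonpos (by linarith), ← e1]
      ring
    · intro s t hs hst ht
      have g : ∀ u, d ≤ u → u ≤ 1 → (p.trans q).extend (sp d u) = q.extend ((u - d) / (1 - d)) := by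
        intro u hu hud
        have h3 : 1 / 2 ≤ 1 / 2 + (u - d) / (2 * (1 - d)) := by
          have : 0 ≤ (u - d) / (2 * (1 - d)) := div_nonneg (by linarith) (by positivity)
          linarith
        rw [sp_of_ge hd0 hu, Path.extend_trans_of_half_le _ _ h3]
        congr 1
        field_simp
        ring
      rw [g s hs (hst.trans ht), g t (hs.trans hst) ht]
      refine (ext_lip hq ⟨div_nonneg (by linarith) hd1'.le, (div_le_one hd1').2 (by linarith)⟩
        ⟨div_nonneg (by linarith) hd1'.le, (div_le_one hd1').2 (by linarith)⟩).trans (le_of_eq ?_)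
      rw [← sub_div, abs_div, abs_of_pos hd1', abs_of_nonpos (by linarith), ← e2]
      ring
  refine ⟨(p.trans q).reparam f hf hf0 hf1, ?_, fun s t => ?_⟩
  · rw [← Path.Homotopic.Quotient.mk_trans]
    exact (Path.Homotopic.Quotient.eq.2 ⟨Path.Homotopy.reparam _ f hf hf0 hf1⟩).symm
  · have := key s t s.2 t.2
    rw [Path.extend_apply _ (sp_mem hd0 hd1 s.2), Path.extend_apply _ (sp_mem hd0 hd1 t.2)] at this
    exact this

/-- Powers of a class of closed paths. -/
noncomputable def pw {a : M} (α : Q a a) : ℕ → Q a a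
  | 0 => Path.Homotopic.Quotient.refl a
  | n + 1 => (pw α n).trans α

theorem pw_one {a : M} (α : Q a a) : pw α 1 = α := Path.Homotopic.Quotient.refl_trans _

theorem pw_add {a : M} (α : Q a a) (m n : ℕ) : pw α (m + n) = (pw α m).trans (pw α n) := by
  induction n with
  | zero => exact (Path.Homotopic.Quotient.trans_refl _).symm
  | succ n ih =>
    show (pw α (m + n)).trans α = (pw α m).trans ((pw α n).trans α)
    rw [ih, Path.Homotopic.Quotient.trans_assoc]

theorem pw_mul {a : M} (α : Q a a) (m n : ℕ) : pw α (m * n) = pw (pw α m) n := by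
  induction n with
  | zero => rfl
  | succ n ih =>
    rw [Nat.mul_succ, pw_add, ih]
    rfl

theorem pw_conj {a b : M} (ω : Q a b) (β : Q b b) (n : ℕ) :
    pw (ω.trans (β.trans ω.symm)) n = ω.trans ((pw β n).trans ω.symm) := by
  induction n with
  | zero =>
    show Path.Homotopic.Quotient.refl a = ω.trans ((Path.Homotopic.Quotient.refl b).trans ω.symm)
    simp
  | succ n ih =>
    show (pw _ n).trans _ = ω.trans (((pw β n).trans β).trans ω.symm)
    rw [ih]
    simp only [Path.Homotopic.Quotient.trans_assoc]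
    congr 2
    rw [← Path.Homotopic.Quotient.trans_assoc ω.symm, Path.Homotopic.Quotient.symm_trans,
      Path.Homotopic.Quotient.refl_trans]

theorem RQ.pw {a : M} {α : Q a a} {T : ℝ} (h : RQ α T) (hT : 0 ≤ T) (n : ℕ) :
    RQ (pw α n) (n * T) := by
  induction n with
  | zero =>
    rw [Nat.cast_zero, zero_mul]
    exact RQ.refl a
  | succ n ih =>
    have := ih.trans h (by positivity) hT
    push_cast
    rw [add_one_mul]
    exact this

end Vale.Agent.P216.H126B
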