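import Vale.Agent.P216.H126B.Homot2
import Vale.Agent.P216.H923B2.R1

/-!
# P216-B, R1
-/

namespace Vale.Agent.P216.H126B

open Vale.Agent.P216.L250

/-- **R1** (lengths and gap). -/
theorem r1Goal : H971B.R1Goal :=
  H923B2.r1Goal_of
    (fun M _ _ ρ hρ h => fun x g m hm K Lg hK hx hg hj r =>
      conj_bound hρ h x g m hm K Lg hK hx hg hj r)
    (fun M _ _ ρ hρ h => fun c => exists_fin hρ h c)

end Vale.Agent.P216.H126B
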